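import Vale.Agent.Lib.P137G.Bridge

/-!
# P137, Q1 for the uncentered Hardy-Littlewood maximal operator: full affirmative answer
-/

namespace Vale.Agent.Results.P137.MaximalGradient

open MeasureTheory Vale.Agent.Lib.P137G
open scoped NNReal

/-- For every dimension `d ≥ 1` there is a constant `C < ∞` such that on the Euclidean space
`E = ℝ^d` (any real inner product space of dimension `d`, with Lebesgue measure):

(1) for every `f ∈ W^{1,1}(E)` (that is, `f` is integrable with an integrable weak gradient `F`),
the uncentered maximal function of `f` is (almost everywhere equal to) a real function `u` in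
`W^{1,1}_loc(E)`: `u` is locally integrable with a weak gradient `G` which is integrable on all
of `E`, and `∫ |G| ≤ C ∫ |F|`;

(2) for every integrable `f` of bounded variation, the uncentered maximal function of `f` is
(almost everywhere equal to) a locally integrable real function `u` with `Var u ≤ C Var f`. -/
theorem result (d : ℕ) (hd : 1 ≤ d) : ∃ C : ℝ≥0,
    ∀ (E : Type*) [NormedAddCommGroup E] [InnerProductSpace ℝ E] [FiniteDimensional ℝ E]
      [MeasurableSpace E] [BorelSpace E], Module.finrank ℝ E = d →
      (∀ (f : E → ℝ) (F : E → E), Integrable f → Integrable F → WeakGradient f F →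
        ∃ (u : E → ℝ) (G : E → E),
          (∀ x, 0 ≤ u x) ∧ (∀ᵐ x, uncentered f x = ENNReal.ofReal (u x)) ∧
          LocallyIntegrable u ∧ Integrable G ∧ WeakGradient u G ∧
          ∫ x, ‖G x‖ ≤ C * ∫ x, ‖F x‖) ∧
      (∀ f : E → ℝ, Integrable f → totalVariation f < ⊤ →
        ∃ u : E → ℝ,
          (∀ x, 0 ≤ u x) ∧ (∀ᵐ x, uncentered f x = ENNReal.ofReal (u x)) ∧
          LocallyIntegrable u ∧ totalVariation u ≤ C * totalVariation f) :=
  main d hd

end Vale.Agent.Results.P137.MaximalGradient
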