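import Vale.Agent.Lib.P137F.Final

/-!
# P137: the uncentered Hardy-Littlewood maximal operator is bounded on `W^{1,1}`, in all dimensions
-/

namespace Vale.Agent.Results.P137.UncenteredW11

open MeasureTheory Metric Set ENNReal

/-- The uncentered Hardy-Littlewood maximal function of `f` on `ℝ^d`: the supremum of the averages
of `|f|` over all open Euclidean balls `ball z r` containing `x`. -/
noncomputable def uncenteredMaximal {d : ℕ} (f : EuclideanSpace ℝ (Fin d) → ℝ)
    (x : EuclideanSpace ℝ (Fin d)) : ℝ≥0∞ :=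
  ⨆ (z : EuclideanSpace ℝ (Fin d)) (r : ℝ) (_ : x ∈ ball z r),
    (∫⁻ y in ball z r, ENNReal.ofReal |f y|) / volume (ball z r)

/-- `G` is a weak (distributional) gradient of `u`: integration by parts against all smooth
compactly supported test functions. -/
def IsWeakGradient {d : ℕ} (u : EuclideanSpace ℝ (Fin d) → ℝ)
    (G : EuclideanSpace ℝ (Fin d) → EuclideanSpace ℝ (Fin d)) : Prop :=
  ∀ φ : EuclideanSpace ℝ (Fin d) → ℝ,
    ContDiff ℝ ((⊤ : ℕ∞) : WithTop ℕ∞) φ → HasCompactSupport φ → ∀ i : Fin d,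
      ∫ x, u x * fderiv ℝ φ x (EuclideanSpace.single i 1) = - ∫ x, G x i * φ x

/-- For every dimension `d ≥ 1` there is a constant `C` such that for every `f ∈ W^{1,1}(ℝ^d)` (with
weak gradient `F`) the uncentered maximal function of `f` is finite almost everywhere, locally
integrable, and has a weak gradient `G` which is integrable on all of `ℝ^d`, with
`∫ |G| ≤ C ∫ |F|`. -/
theorem result (d : ℕ) (hd : 1 ≤ d) : ∃ C : ℝ, 0 < C ∧
    ∀ (f : EuclideanSpace ℝ (Fin d) → ℝ)
      (F : EuclideanSpace ℝ (Fin d) → EuclideanSpace ℝ (Fin d)),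
      Integrable f → Integrable F → IsWeakGradient f F →
        (∀ᵐ x, uncenteredMaximal f x < ⊤) ∧
        LocallyIntegrable (fun x => (uncenteredMaximal f x).toReal) ∧
        ∃ G : EuclideanSpace ℝ (Fin d) → EuclideanSpace ℝ (Fin d), Integrable G ∧
          IsWeakGradient (fun x => (uncenteredMaximal f x).toReal) G ∧
          ∫ x, ‖G x‖ ≤ C * ∫ x, ‖F x‖ :=
  Vale.Agent.P137F.final d hd

end Vale.Agent.Results.P137.UncenteredW11
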